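import Mathlib.Combinatorics.SetFamily.LYM
import Mathlib.Data.Matrix.Mul
import Mathlib.Data.Nat.Choose.Central
import Mathlib.Analysis.Real.Sqrt
import Mathlib.Data.Real.Basic
import Mathlib.LinearAlgebra.Dual.Lemmas
import Mathlib.LinearAlgebra.LinearIndependent.Lemmas
import Mathlib.LinearAlgebra.Matrix.Symmetric
import Mathlib.Tactic

/-! Counting symmetric sign matrices with a kernel vector of prescribed support. -/

namespace Vale.Agent.P160

open scoped BigOperators
open Finset Matrix

/-- A sign. -/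
def sgn (b : Bool) : ℝ := if b then 1 else -1

lemma sgn_injective : Function.Injective sgn := by
  intro a b h; cases a <;> cases b <;> norm_num [sgn] at h <;> rfl

lemma fill_count {κ D : Type*} [Fintype κ] [Fintype D] [DecidableEq κ] [DecidableEq D] (f : D → κ)
    (hf : Function.Injective f) (E : (κ → Bool) → Prop) (c : ℕ) [DecidablePred E]
    (h : ∀ x, #{g : D → Bool | E (Function.extend f g x)} ≤ c) :
    #{x | E x} * 2 ^ Fintype.card D ≤ 2 ^ Fintype.card κ * c := by
  classical
  let σ : (κ → Bool) × (D → Bool) → (κ → Bool) × (D → Bool) := fun p =>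
    (Function.extend f p.2 p.1, p.1 ∘ f)
  have hσ : Function.Involutive σ := fun p => by
    refine Prod.ext ?_ (funext fun d => by simp [σ, hf.extend_apply])
    funext k
    by_cases hk : ∃ d, f d = k
    · obtain ⟨d, rfl⟩ := hk
      simp [σ, hf.extend_apply]
    · simp [σ, Function.extend_apply' _ _ _ hk]
  have h1 : #{p : (κ → Bool) × (D → Bool) | E (σ p).1}
      = #{p : (κ → Bool) × (D → Bool) | E p.1} :=
    Finset.card_bij (fun p _ => σ p) (fun p hp => by simpa using hp)
      (fun p _ q _ h => hσ.injective h) fun q hq => ⟨σ q, by simpa [hσ q] using hq, hσ q⟩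
  have h2 : #{p : (κ → Bool) × (D → Bool) | E p.1} = #{x | E x} * 2 ^ Fintype.card D := by
    rw [show ({p : (κ → Bool) × (D → Bool) | E p.1} : Finset _)
      = ({x | E x} : Finset (κ → Bool)) ×ˢ univ from by ext; simp, card_product]
    simp
  rw [← h2, ← h1, card_eq_sum_card_fiberwise (f := Prod.fst) (t := (univ : Finset (κ → Bool)))
    (fun _ _ => mem_univ _)]
  calc ∑ x : κ → Bool, #{p ∈ {p : (κ → Bool) × (D → Bool) | E (σ p).1} | p.1 = x}
      ≤ ∑ _x : κ → Bool, c := sum_le_sum fun x _ => le_trans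
        (card_le_card_of_injOn (fun p => p.2) (fun p hp => by
          simp only [coe_filter, Set.mem_ofPred_eq, mem_filter, mem_univ, true_and] at hp ⊢
          simpa [σ, hp.2] using hp.1)
          fun p hp q hq hpq => by
            simp only [coe_filter, Set.mem_ofPred_eq] at hp hq
            exact Prod.ext (hp.2.trans hq.2.symm) hpq) (h x)
    _ = _ := by simp

/-- Erdős's Littlewood-Offord bound. -/
lemma littlewood_offord {ι : Type*} [Fintype ι] [DecidableEq ι] (w : ι → ℝ) (hw : ∀ i, w i ≠ 0) :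
    #{ε : ι → Bool | ∑ i, sgn (ε i) * w i = 0} ≤ (Fintype.card ι).choose (Fintype.card ι / 2) := by
  classical
  let pos : (ι → Bool) → Finset ι := fun ε => {i | sgn (ε i) * w i > 0}
  have hinj : Function.Injective pos := by
    intro ε δ h
    funext i
    have := Finset.ext_iff.1 h i
    simp only [pos, mem_filter, mem_univ, true_and] at this
    rcases lt_or_gt_of_ne (hw i) with hn | hp <;> cases hε : ε i <;> cases hδ : δ i <;>
      simp_all [sgn] <;> linarith
  refine (card_image_of_injective _ hinj).symm.le.trans (IsAntichain.sperner ?_)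
  rintro _ ha _ hb hne hsub
  simp only [coe_image, coe_filter, Set.mem_image, Set.mem_ofPred_eq, mem_univ, true_and] at ha hb
  obtain ⟨ε, hε, rfl⟩ := ha
  obtain ⟨δ, hδ, rfl⟩ := hb
  have habs : ∀ (e : ι → Bool) i, sgn (e i) * w i = if i ∈ pos e then |w i| else -|w i| := by
    intro e i
    rcases lt_or_gt_of_ne (hw i) with hn | hp <;> cases he : e i <;>
      simp [pos, sgn, he, abs_of_neg, abs_of_pos, *, not_lt_of_gt]
  obtain ⟨i₀, hi₀, hi₀'⟩ : ∃ i, i ∈ pos δ ∧ i ∉ pos ε :=
    exists_of_ssubset (Finset.ssubset_iff_subset_ne.2 ⟨hsub, hne⟩)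
  have hlt : ∑ i, sgn (ε i) * w i < ∑ i, sgn (δ i) * w i := by
    refine sum_lt_sum (fun i _ => ?_) ⟨i₀, mem_univ _, ?_⟩
    · rw [habs ε, habs δ]
      split_ifs with h1 h2
      · exact le_rfl
      · exact absurd (hsub h1) h2
      · linarith [abs_nonneg (w i)]
      · exact le_rfl
    · rw [habs ε, habs δ, if_pos hi₀, if_neg hi₀']
      linarith [abs_pos.2 (hw i₀)]
  rw [hε, hδ] at hlt
  exact lt_irrefl _ hlt

/-- The positions on and above the diagonal. -/
abbrev Upper (n : ℕ) := {p : Fin n × Fin n // p.1 ≤ p.2}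

variable {n : ℕ}

/-- The upper position representing `(i, j)`. -/
def srt (i j : Fin n) : Upper n :=
  if h : i ≤ j then ⟨(i, j), h⟩ else ⟨(j, i), (le_of_not_ge h)⟩

lemma srt_eq (i j : Fin n) : (srt i j).1 = (i, j) ∨ (srt i j).1 = (j, i) := by
  unfold srt; split_ifs <;> simp

lemma srt_comm (i j : Fin n) : srt i j = srt j i := by
  unfold srt
  split_ifs with h1 h2 h2
  · have := le_antisymm h1 h2; subst this; rfl
  · rfl
  · rfl
  · exact absurd (le_of_not_ge h1) h2

/-- The symmetric sign matrix with the given upper entries. -/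
def symMat (x : Upper n → Bool) : Matrix (Fin n) (Fin n) ℝ := fun i j => sgn (x (srt i j))

lemma symMat_comm (x : Upper n → Bool) (i j : Fin n) : symMat x i j = symMat x j i := by
  simp [symMat, srt_comm i j]

/-- Vectors supported in `S` killed by the rows in `S`. -/
def blockKer (x : Upper n → Bool) (S : Finset (Fin n)) : Submodule ℝ (Fin n → ℝ) where
  carrier := {w | (∀ i, i ∉ S → w i = 0) ∧ ∀ i ∈ S, (symMat x *ᵥ w) i = 0}
  add_mem' ha hb := ⟨fun i hi => by simp [ha.1 i hi, hb.1 i hi],
    fun i hi => by simp [mulVec_add, ha.2 i hi, hb.2 i hi]⟩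
  zero_mem' := by simp
  smul_mem' c _ ha := ⟨fun i hi => by simp [ha.1 i hi],
    fun i hi => by simp [mulVec_smul, ha.2 i hi]⟩

/-- The block kernel projects onto the coordinates in `J`. -/
def Covers (x : Upper n → Bool) (S J : Finset (Fin n)) : Prop :=
  ∀ i ∈ J, ∃ w ∈ blockKer x S, ∀ j ∈ J, w j = if j = i then 1 else 0

open scoped Classical in
lemma card_covers (S J : Finset (Fin n)) (hJ : J ⊆ S) :
    #{x | Covers x S J} * 2 ^ Fintype.card {p : Upper n // p.1.1 ∈ J ∧ p.1.2 ∈ J}
      ≤ 2 ^ Fintype.card (Upper n) := by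
  set f : {p : Upper n // p.1.1 ∈ J ∧ p.1.2 ∈ J} → Upper n := fun p => p.1
  have hf : Function.Injective f := Subtype.val_injective
  refine (fill_count f hf (fun x => Covers x S J) 1 fun x => ?_).trans_eq (mul_one _)
  rw [card_le_one]
  intro g hg g' hg'
  simp only [mem_filter, mem_univ, true_and] at hg hg'
  set A := symMat (Function.extend f g x) with hA
  set A' := symMat (Function.extend f g' x) with hA'
  funext d
  obtain ⟨⟨⟨i, j⟩, hij⟩, hi, hj⟩ := d
  simp only at hi hj
  obtain ⟨w, hw, hwJ⟩ := hg i hi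
  obtain ⟨u, hu, huJ⟩ := hg' j hj
  have hout : ∀ a b, ¬(a ∈ J ∧ b ∈ J) → A a b = A' a b := by
    intro a b hab
    have hno : ¬∃ d, f d = srt a b := by
      rintro ⟨⟨p, hp1, hp2⟩, rfl⟩
      rcases srt_eq a b with he | he <;> rw [he] at hp1 hp2
      · exact hab ⟨hp1, hp2⟩
      · exact hab ⟨hp2, hp1⟩
    simp only [hA, hA', symMat, Function.extend_apply' _ _ _ hno]
  have h1 : ∑ a, u a * (A *ᵥ w) a = 0 := sum_eq_zero fun a _ => by
    by_cases ha : a ∈ S
    · rw [hw.2 a ha, mul_zero]
    · rw [hu.1 a ha, zero_mul]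
  have h2 : ∑ a, u a * (A' *ᵥ w) a = 0 := by
    have e : ∑ a, u a * (A' *ᵥ w) a = ∑ b, w b * (A' *ᵥ u) b := by
      simp only [mulVec, dotProduct, mul_sum]
      rw [sum_comm]
      refine sum_congr rfl fun b _ => sum_congr rfl fun a _ => ?_
      rw [hA', symMat_comm _ a b]; ring
    rw [e]
    refine sum_eq_zero fun b _ => ?_
    by_cases hb : b ∈ S
    · rw [hu.2 b hb, mul_zero]
    · rw [hw.1 b hb, zero_mul]
  have h3 : ∑ a, ∑ b, u a * ((A a b - A' a b) * w b) = A j i - A' j i := by
    rw [sum_eq_single j, sum_eq_single i]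
    · rw [huJ j hj, hwJ i hi]; simp
    · intro b _ hb
      by_cases hbJ : b ∈ J
      · rw [hwJ b hbJ, if_neg hb]; ring
      · rw [hout j b (fun h => hbJ h.2)]; ring
    · simp
    · intro a _ ha
      refine sum_eq_zero fun b _ => ?_
      by_cases haJ : a ∈ J
      · rw [huJ a haJ, if_neg ha]; ring
      · rw [hout a b (fun h => haJ h.1)]; ring
    · simp
  have h4 : A j i - A' j i = 0 := by
    rw [← h3]
    calc ∑ a, ∑ b, u a * ((A a b - A' a b) * w b)
        = ∑ a, u a * (A *ᵥ w) a - ∑ a, u a * (A' *ᵥ w) a := by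
          rw [← sum_sub_distrib]
          refine sum_congr rfl fun a _ => ?_
          simp only [mulVec, dotProduct, mul_sum, ← sum_sub_distrib]
          exact sum_congr rfl fun b _ => by ring
      _ = 0 := by rw [h1, h2, sub_zero]
  have hs : srt j i = f ⟨⟨(i, j), hij⟩, hi, hj⟩ := by
    rw [srt_comm]; simp [srt, f, show i ≤ j from hij]
  have h5 := sub_eq_zero.1 h4
  simp only [hA, hA', symMat, hs, hf.extend_apply] at h5
  exact sgn_injective h5

/-- A full-support block kernel vector with the rows in `T` deciding all outside rows. -/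
def Decided (x : Upper n → Bool) (S T : Finset (Fin n)) : Prop :=
  (∃ w ∈ blockKer x S, (∀ i ∈ S, w i ≠ 0) ∧ ∀ r ∈ T, (symMat x *ᵥ w) r = 0) ∧
    ∀ w ∈ blockKer x S, (∀ r ∈ T, (symMat x *ᵥ w) r = 0) →
      ∀ r, r ∉ S → (symMat x *ᵥ w) r = 0

open scoped Classical in
lemma card_decided (S T : Finset (Fin n)) :
    #{x | Decided x S T} * 2 ^ ((#(univ \ (S ∪ T))) * #S)
      ≤ 2 ^ Fintype.card (Upper n) * (#S).choose (#S / 2) ^ #(univ \ (S ∪ T)) := by
  set R := univ \ (S ∪ T) with hR
  set f : R × S → Upper n := fun p => srt p.1 p.2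
  have hRS : ∀ (r : R) (s : S), (r : Fin n) ≠ s := fun r s h => by
    have := r.2
    simp only [hR, mem_sdiff, mem_union] at this
    exact this.2 (Or.inl (h ▸ s.2))
  have hf : Function.Injective f := by
    rintro ⟨r, s⟩ ⟨r', s'⟩ h
    have h' := congrArg Subtype.val h
    simp only [f] at h'
    rcases srt_eq (r : Fin n) s with e | e <;> rcases srt_eq (r' : Fin n) s' with e' | e' <;>
      rw [e, e', Prod.mk.injEq] at h'
    · exact Prod.ext (Subtype.ext h'.1) (Subtype.ext h'.2)
    · exact absurd h'.1 (hRS r s')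
    · exact absurd h'.2 (hRS r s')
    · exact Prod.ext (Subtype.ext h'.2) (Subtype.ext h'.1)
  have := fill_count f hf (fun x => Decided x S T) ((#S).choose (#S / 2) ^ #R) fun x => ?_
  · simpa [Fintype.card_prod] using this
  by_cases hex : ∃ g, Decided (Function.extend f g x) S T
  swap
  · push_neg at hex
    simp [filter_false_of_mem fun g _ => hex g]
  obtain ⟨g₀, ⟨w, hw, hwne, hwT⟩, -⟩ := hex
  have hsame : ∀ (g : R × S → Bool) a, a ∈ S ∨ a ∈ T → ∀ b ∈ S,
      symMat (Function.extend f g x) a b = symMat (Function.extend f g₀ x) a b := by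
    intro g a ha b hb
    have hno : ¬∃ d, f d = srt a b := by
      rintro ⟨⟨r, s⟩, h⟩
      have hr := r.2
      simp only [hR, mem_sdiff, mem_union, not_or] at hr
      have h' := congrArg Subtype.val h
      simp only [f] at h'
      rcases srt_eq (r : Fin n) s with e | e <;> rcases srt_eq a b with e' | e' <;>
        rw [e, e', Prod.mk.injEq] at h'
      · rcases ha with ha | ha
        · exact hr.2.1 (h'.1 ▸ ha)
        · exact hr.2.2 (h'.1 ▸ ha)
      · exact hr.2.1 (h'.1 ▸ hb)
      · exact hr.2.1 (h'.2 ▸ hb)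
      · rcases ha with ha | ha
        · exact hr.2.1 (h'.2 ▸ ha)
        · exact hr.2.2 (h'.2 ▸ ha)
    simp only [symMat, Function.extend_apply' _ _ _ hno]
  have hmv : ∀ (g : R × S → Bool) a, a ∈ S ∨ a ∈ T →
      (symMat (Function.extend f g x) *ᵥ w) a = (symMat (Function.extend f g₀ x) *ᵥ w) a := by
    intro g a ha
    simp only [mulVec, dotProduct]
    refine sum_congr rfl fun b _ => ?_
    by_cases hb : b ∈ S
    · rw [hsame g a ha b hb]
    · rw [hw.1 b hb, mul_zero, mul_zero]
  have hrow : ∀ g, Decided (Function.extend f g x) S T → ∀ r : R,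
      ∑ s : S, sgn (g (r, s)) * w s = 0 := by
    intro g hg r
    have hr := r.2
    simp only [hR, mem_sdiff, mem_union, not_or] at hr
    have h0 := hg.2 w ⟨hw.1, fun a ha => (hmv g a (Or.inl ha)).trans (hw.2 a ha)⟩
      (fun a ha => (hmv g a (Or.inr ha)).trans (hwT a ha)) r hr.2.1
    rw [← h0, mulVec, dotProduct,
      ← sum_subset (subset_univ S) fun b _ hb => by rw [hw.1 b hb, mul_zero],
      ← Finset.sum_coe_sort S]
    refine sum_congr rfl fun s _ => ?_
    rw [symMat, show srt (r : Fin n) s = f (r, s) from rfl, hf.extend_apply]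
  refine (card_le_card_of_injOn (t := Fintype.piFinset fun _ : R =>
    ({ε : S → Bool | ∑ s, sgn (ε s) * w s = 0} : Finset _)) (fun g r s => g (r, s))
    (fun g hg => ?_) fun g _ g' _ h => funext fun p => congrFun (congrFun h p.1) p.2).trans ?_
  · simp only [coe_filter, Set.mem_ofPred_eq, mem_univ, true_and] at hg
    rw [mem_coe, Fintype.mem_piFinset]
    exact fun r => mem_filter.2 ⟨mem_univ _, hrow g hg r⟩
  · rw [Fintype.card_piFinset]
    refine (prod_le_prod' fun r _ => littlewood_offord (fun s : S => w s) fun s => hwne _ s.2).trans ?_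
    simp

/-- A kernel vector with support `S`. -/
def HasKerSupp (x : Upper n → Bool) (S : Finset (Fin n)) : Prop :=
  ∃ v, symMat x *ᵥ v = 0 ∧ ∀ i, i ∈ S ↔ v i ≠ 0

open scoped Classical in
lemma hasKerSupp_cases {x : Upper n → Bool} {S : Finset (Fin n)} (h : HasKerSupp x S) (k : ℕ)
    (hk : 1 ≤ k) (hSk : k ≤ #(univ \ S) + 1) :
    (∃ J ⊆ S, #J = k + 1 ∧ Covers x S J) ∨
      ∃ T ⊆ univ \ S, #T + 1 = k ∧ Decided x S T := by
  obtain ⟨v, hv, hvS⟩ := h
  have hvK : v ∈ blockKer x S :=
    ⟨fun i hi => not_not.1 fun h => hi ((hvS i).2 h), fun i _ => by rw [hv]; rfl⟩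
  set K := blockKer x S with hK
  rcases le_or_gt (Module.finrank ℝ K) k with hle | hgt
  · right
    let φ : ↥(univ \ S) → Module.Dual ℝ K := fun r =>
      { toFun := fun w => (symMat x *ᵥ (w : Fin n → ℝ)) r
        map_add' := fun a b => by simp [mulVec_add]
        map_smul' := fun c a => by simp [mulVec_smul] }
    obtain ⟨κ, a, ha, hsp, hli⟩ := exists_linearIndependent' ℝ φ
    haveI : Finite κ := Finite.of_injective a ha
    letI := Fintype.ofFinite κ
    have hvk : (⟨v, hvK⟩ : K) ≠ 0 → Fintype.card κ + 1 ≤ k := by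
      intro hne
      let ev : Module.Dual ℝ K →ₗ[ℝ] ℝ := Module.Dual.eval ℝ K ⟨v, hvK⟩
      have hsub : Submodule.span ℝ (Set.range (φ ∘ a)) ≤ LinearMap.ker ev := by
        rw [Submodule.span_le]
        rintro _ ⟨i, rfl⟩
        simp [ev, φ, hv]
      have h1 : Fintype.card κ ≤ Module.finrank ℝ (LinearMap.ker ev) :=
        (finrank_span_eq_card hli).symm.le.trans (Submodule.finrank_mono hsub)
      have h2 : Module.finrank ℝ (LinearMap.ker ev) < Module.finrank ℝ (Module.Dual ℝ K) := by
        refine Submodule.finrank_lt fun htop => hne ?_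
        refine (Module.forall_dual_apply_eq_zero_iff ℝ _).1 fun ψ => ?_
        have : ψ ∈ LinearMap.ker ev := htop ▸ trivial
        simpa [ev] using this
      rw [Subspace.dual_finrank_eq] at h2
      omega
    by_cases hS : S = ∅
    · exact ⟨(exists_subset_card_eq (s := univ \ S) (show k - 1 ≤ _ by omega)).choose,
        (exists_subset_card_eq (s := univ \ S) (show k - 1 ≤ _ by omega)).choose_spec.1,
        by rw [(exists_subset_card_eq (s := univ \ S) (show k - 1 ≤ _ by omega)).choose_spec.2]; omega,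
        ⟨v, hvK, fun i hi => (hvS i).1 hi, fun r _ => by rw [hv]; rfl⟩,
        fun w hw _ r _ => by
          have : w = 0 := funext fun i => hw.1 i (by simp [hS])
          simp [this]⟩
    obtain ⟨i₀, hi₀⟩ := nonempty_iff_ne_empty.2 hS
    have hcard := hvk fun h => (hvS i₀).1 hi₀ (congrFun (congrArg Subtype.val h) i₀)
    let T₀ : Finset (Fin n) := univ.image fun i => (a i : Fin n)
    have hT₀ : #T₀ ≤ k - 1 := card_image_le.trans (by rw [card_univ]; omega)
    obtain ⟨T, hT₀T, hTS, hTc⟩ := exists_subsuperset_card_eq (s := T₀) (t := univ \ S)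
      (fun i hi => by
        obtain ⟨j, -, rfl⟩ := mem_image.1 hi
        exact (a j).2) hT₀ (by omega)
    refine ⟨T, hTS, by omega, ⟨v, hvK, fun i hi => (hvS i).1 hi, fun r _ => by rw [hv]; rfl⟩, ?_⟩
    intro w hw hwT r hr
    have hker : Submodule.span ℝ (Set.range φ) ≤ LinearMap.ker (Module.Dual.eval ℝ K ⟨w, hw⟩) := by
      rw [← hsp, Submodule.span_le]
      rintro _ ⟨i, rfl⟩
      simpa [φ] using hwT _ (hT₀T (mem_image_of_mem _ (mem_univ i)))
    simpa [φ] using hker (Submodule.subset_span ⟨⟨r, by simpa using hr⟩, rfl⟩)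
  · left
    let π : ↥S → Module.Dual ℝ K := fun i => (LinearMap.proj (i : Fin n)).comp K.subtype
    obtain ⟨κ, a, ha, hsp, hli⟩ := exists_linearIndependent' ℝ π
    haveI : Finite κ := Finite.of_injective a ha
    letI := Fintype.ofFinite κ
    have hzero : ∀ w : K, (∀ i, π i w = 0) → w = 0 := fun w hw => Subtype.ext <| funext fun i => by
      by_cases hi : i ∈ S
      · exact hw ⟨i, hi⟩
      · exact w.2.1 i hi
    let ev : K →ₗ[ℝ] (κ → ℝ) := LinearMap.pi fun i => π (a i)
    have hev : Function.Injective ev := by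
      rw [← LinearMap.ker_eq_bot, LinearMap.ker_eq_bot']
      intro w hw
      refine hzero w fun i => ?_
      have hle : Submodule.span ℝ (Set.range π) ≤ LinearMap.ker (Module.Dual.eval ℝ K w) := by
        rw [← hsp, Submodule.span_le]
        rintro _ ⟨j, rfl⟩
        simpa [ev] using congrFun hw j
      simpa using hle (Submodule.subset_span ⟨i, rfl⟩)
    have hle1 : Fintype.card κ ≤ Module.finrank ℝ K := by
      rw [← Subspace.dual_finrank_eq]; exact hli.fintype_card_le_finrank
    have hle2 : Module.finrank ℝ K ≤ Fintype.card κ := by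
      simpa using LinearMap.finrank_le_finrank_of_injective hev
    have hsurj : Function.Surjective ev :=
      (LinearMap.injective_iff_surjective_of_finrank_eq_finrank (by simp; omega)).1 hev
    obtain ⟨J₀, -, hJ₀⟩ := exists_subset_card_eq (s := (univ : Finset κ)) (n := k + 1)
      (by rw [card_univ]; omega)
    refine ⟨J₀.image fun i => (a i : Fin n), fun i hi => ?_, ?_, ?_⟩
    · obtain ⟨j, -, rfl⟩ := mem_image.1 hi
      exact (a j).2
    · rw [card_image_of_injective _ (fun p q h => ha (Subtype.ext h)), hJ₀]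
    · intro i hi
      obtain ⟨j, -, rfl⟩ := mem_image.1 hi
      obtain ⟨w, hw⟩ := hsurj (Pi.single j 1)
      refine ⟨w, w.2, fun l hl => ?_⟩
      obtain ⟨l', -, rfl⟩ := mem_image.1 hl
      have := congrFun hw l'
      simp only [ev, π, LinearMap.pi_apply, LinearMap.comp_apply, Submodule.subtype_apply,
        LinearMap.proj_apply, Pi.single_apply] at this
      rw [this]
      exact if_congr ⟨fun h => by rw [h], fun h => ha (Subtype.ext h)⟩ rfl rfl

end Vale.Agent.P160
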