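import Mathlib.Analysis.SpecialFunctions.Log.Base
import Mathlib.Analysis.SpecialFunctions.Sqrt
import Vale.Agent.P160.Count

/-! Sparse kernel vectors of random symmetric sign matrices have probability `(1/2+o(1))ⁿ`. -/

namespace Vale.Agent.P160

open scoped BigOperators
open Finset Matrix

/-- The matrix has a nonzero kernel vector with at least `z` zero coordinates. -/
def SparseSingular {n : ℕ} (x : Upper n → Bool) (z : ℕ) : Prop :=
  ∃ v : Fin n → ℝ, v ≠ 0 ∧ symMat x *ᵥ v = 0 ∧ z ≤ Set.ncard {i | v i = 0}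

/-- The maximal atom of a signed sum of `m` nonzero terms at one point. -/
noncomputable def rho (m : ℕ) : ℝ := (m.choose (m / 2) : ℝ) / 2 ^ m

lemma rho_nonneg (m : ℕ) : 0 ≤ rho m := by unfold rho; positivity

lemma rho_succ_le (m : ℕ) : rho (m + 1) ≤ rho m := by
  have h : (m + 1).choose ((m + 1) / 2) ≤ 2 * m.choose (m / 2) := by
    rcases Nat.eq_zero_or_pos ((m + 1) / 2) with h | h
    · rw [h, Nat.choose_zero_right]
      have := Nat.choose_pos (show m / 2 ≤ m by omega)
      omega
    · obtain ⟨j, hj⟩ := Nat.exists_eq_succ_of_ne_zero h.ne'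
      rw [hj, Nat.choose_succ_succ]
      linarith [Nat.choose_le_middle j m, Nat.choose_le_middle (j + 1) m]
  unfold rho
  rw [pow_succ, div_le_div_iff₀ (by positivity) (by positivity)]
  have h' : ((m + 1).choose ((m + 1) / 2) : ℝ) ≤ 2 * m.choose (m / 2) := by exact_mod_cast h
  nlinarith [show (0 : ℝ) < 2 ^ m by positivity]

lemma rho_anti : Antitone rho := antitone_nat_of_succ_le rho_succ_le

lemma rho_le_half {m : ℕ} (h : 1 ≤ m) : rho m ≤ 1 / 2 :=
  (rho_anti h).trans (by norm_num [rho])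

lemma rho_le_three_eighths {m : ℕ} (h : 3 ≤ m) : rho m ≤ 3 / 8 :=
  (rho_anti h).trans (by norm_num [rho, show Nat.choose 3 1 = 3 from rfl])

lemma centralBinom_sq_le (k : ℕ) : (Nat.centralBinom k) ^ 2 * (2 * k + 1) ≤ 16 ^ k := by
  induction k with
  | zero => simp [Nat.centralBinom_zero]
  | succ k ih =>
    have h := Nat.succ_mul_centralBinom_succ k
    refine Nat.le_of_mul_le_mul_left ?_ (show 0 < (k + 1) ^ 2 by positivity)
    calc (k + 1) ^ 2 * ((k + 1).centralBinom ^ 2 * (2 * (k + 1) + 1))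
        = ((k + 1) * (k + 1).centralBinom) ^ 2 * (2 * (k + 1) + 1) := by ring
      _ = 4 * ((k.centralBinom ^ 2 * (2 * k + 1)) * ((2 * k + 1) * (2 * k + 3))) := by rw [h]; ring
      _ ≤ 4 * (16 ^ k * (4 * (k + 1) ^ 2)) :=
          Nat.mul_le_mul_left _ (Nat.mul_le_mul ih (by nlinarith))
      _ = _ := by ring

lemma rho_sq_mul_le {m : ℕ} : rho m ^ 2 * m ≤ 1 := by
  have heven : ∀ k : ℕ, rho (2 * k) ^ 2 * (2 * k + 1) ≤ 1 := by
    intro k
    have h : ((Nat.centralBinom k : ℝ)) ^ 2 * (2 * k + 1) ≤ 16 ^ k := by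
      exact_mod_cast centralBinom_sq_le k
    rw [rho, Nat.mul_div_cancel_left _ two_pos, ← Nat.centralBinom_eq_two_mul_choose, div_pow,
      div_mul_eq_mul_div, div_le_one (by positivity)]
    refine h.trans_eq ?_
    rw [← pow_mul, show 2 * k * 2 = 4 * k by ring, pow_mul]
    norm_num
  obtain ⟨k, rfl | rfl⟩ := Nat.even_or_odd' m
  · refine le_trans ?_ (heven k)
    push_cast
    nlinarith [sq_nonneg (rho (2 * k))]
  · refine le_trans ?_ (heven k)
    push_cast
    exact mul_le_mul_of_nonneg_right (pow_le_pow_left₀ (rho_nonneg _) (rho_succ_le _) 2) (by positivity)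

lemma square_le_two_mul {n : ℕ} (J : Finset (Fin n)) :
    #J * #J ≤ 2 * Fintype.card {p : Upper n // p.1.1 ∈ J ∧ p.1.2 ∈ J} := by
  classical
  rw [← card_product, two_mul]
  let D : Finset (Fin n × Fin n) := (J ×ˢ J).filter fun p => p.1 ≤ p.2
  have hD : #D ≤ Fintype.card {p : Upper n // p.1.1 ∈ J ∧ p.1.2 ∈ J} := by
    rw [← card_univ]
    refine card_le_card_of_surjOn (fun p => p.1.1) ?_
    intro p hp
    simp only [D, coe_filter, mem_product, Set.mem_ofPred_eq] at hp
    exact ⟨⟨⟨p, hp.2⟩, hp.1.1, hp.1.2⟩, by simp, rfl⟩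
  refine (card_le_card (t := D ∪ D.image Prod.swap) ?_).trans
    ((card_union_le _ _).trans (add_le_add hD (card_image_le.trans hD)))
  intro p hp
  rcases le_total p.1 p.2 with h | h
  · exact mem_union_left _ (mem_filter.2 ⟨hp, h⟩)
  · refine mem_union_right _ (mem_image.2 ⟨p.swap, mem_filter.2 ⟨?_, h⟩, Prod.swap_swap _⟩)
    simp only [mem_product, Prod.fst_swap, Prod.snd_swap] at hp ⊢
    exact hp.symm

variable {n : ℕ}

open scoped Classical in
/-- The probability that some kernel vector has support `S`. -/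
lemma prob_supp_le (S : Finset (Fin n)) (k : ℕ) (hk : 1 ≤ k) (hSk : k ≤ n - #S + 1) :
    (#{x | HasKerSupp x S} : ℝ) / 2 ^ Fintype.card (Upper n)
      ≤ ((#S).choose (k + 1) : ℝ) * (1 / 2) ^ (((k + 1) * (k + 1)) / 2)
        + ((n - #S).choose (k - 1) : ℝ) * rho #S ^ (n - #S - (k - 1)) := by
  have hc : #(univ \ S) = n - #S := by rw [card_sdiff_of_subset (subset_univ S)]; simp
  have hsub : ({x | HasKerSupp x S} : Finset (Upper n → Bool)) ⊆
      ((S.powersetCard (k + 1)).biUnion fun J => {x | Covers x S J}) ∪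
        ((univ \ S).powersetCard (k - 1)).biUnion fun T => {x | Decided x S T} := by
    intro x hx
    simp only [mem_filter, mem_univ, true_and] at hx
    rcases hasKerSupp_cases hx k hk (by omega) with ⟨J, hJ, hJc, hx'⟩ | ⟨T, hT, hTc, hx'⟩
    · exact mem_union_left _ (mem_biUnion.2 ⟨J, mem_powersetCard.2 ⟨hJ, hJc⟩, by simpa using hx'⟩)
    · exact mem_union_right _
        (mem_biUnion.2 ⟨T, mem_powersetCard.2 ⟨hT, by omega⟩, by simpa using hx'⟩)
  have hcard := (card_le_card hsub).trans
    ((card_union_le _ _).trans (add_le_add card_biUnion_le card_biUnion_le))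
  rw [div_le_iff₀ (by positivity)]
  refine (Nat.cast_le.2 hcard).trans ?_
  push_cast
  rw [add_mul]
  refine add_le_add ?_ ?_
  · refine (sum_le_card_nsmul _ _
      ((1 / 2 : ℝ) ^ (((k + 1) * (k + 1)) / 2) * 2 ^ Fintype.card (Upper n)) fun J hJ => ?_).trans_eq ?_
    · obtain ⟨hJ1, hJ2⟩ := mem_powersetCard.1 hJ
      set d := Fintype.card {p : Upper n // p.1.1 ∈ J ∧ p.1.2 ∈ J}
      have h1 : (#{x | Covers x S J} : ℝ) * 2 ^ d ≤ 2 ^ Fintype.card (Upper n) := by
        exact_mod_cast card_covers S J hJ1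
      have h2 : ((k + 1) * (k + 1)) / 2 ≤ d := by
        have := square_le_two_mul J
        rw [hJ2] at this
        omega
      rw [one_div, inv_pow, inv_mul_eq_div, le_div_iff₀ (by positivity)]
      exact (mul_le_mul_of_nonneg_left (pow_le_pow_right₀ one_le_two h2) (Nat.cast_nonneg _)).trans h1
    · rw [card_powersetCard, nsmul_eq_mul]; ring
  · refine (sum_le_card_nsmul _ _
      (rho #S ^ (n - #S - (k - 1)) * 2 ^ Fintype.card (Upper n)) fun T hT => ?_).trans_eq ?_
    · obtain ⟨hT1, hT2⟩ := mem_powersetCard.1 hT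
      have hR : #(univ \ (S ∪ T)) = n - #S - (k - 1) := by
        rw [← hT2, ← hc, ← card_sdiff_of_subset hT1]
        congr 1; ext i; simp
      have h1 : (#{x | Decided x S T} : ℝ) * 2 ^ (#(univ \ (S ∪ T)) * #S)
          ≤ 2 ^ Fintype.card (Upper n) * ((#S).choose (#S / 2) : ℝ) ^ #(univ \ (S ∪ T)) := by
        exact_mod_cast card_decided S T
      rw [hR, mul_comm (n - #S - (k - 1)), pow_mul, ← le_div_iff₀ (by positivity)] at h1
      refine h1.trans_eq ?_
      rw [rho, div_pow]
      ring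
    · rw [card_powersetCard, hc, nsmul_eq_mul]; ring

lemma small_bound {n m : ℕ} (hn : 48 ^ 4 ≤ n) (hm : m ≤ Nat.sqrt n) :
    (n : ℝ) ^ (2 * m) * (3 / 8) ^ (n - 2 * m) ≤ 1 / 2 ^ n := by
  have hn0 : (0 : ℝ) < n := by
    have : 0 < n := lt_of_lt_of_le (by norm_num) hn
    exact_mod_cast this
  have h2m : 2 * m ≤ n := by
    have := Nat.sqrt_le n
    nlinarith
  have key : ((8 / 3 : ℝ) * n) ^ (2 * m) * (3 / 4) ^ n ≤ 1 := by
    rw [← Real.log_nonpos_iff (by positivity), Real.log_mul (by positivity) (by positivity),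
      Real.log_pow, Real.log_pow]
    have hlog34 : Real.log (3 / 4) ≤ -(1 / 4) := by
      linarith [Real.log_le_sub_one_of_pos (show (0 : ℝ) < 3 / 4 by norm_num)]
    set r := Real.sqrt (Real.sqrt n) with hr
    have hr4 : r ^ 4 = n := by
      rw [show r ^ 4 = (r ^ 2) ^ 2 by ring, hr, Real.sq_sqrt (Real.sqrt_nonneg _),
        Real.sq_sqrt hn0.le]
    have hr48 : 48 ≤ r := by
      have : (48 : ℝ) ^ 4 ≤ r ^ 4 := by rw [hr4]; exact_mod_cast hn
      exact le_of_pow_le_pow_left₀ (by norm_num) (Real.sqrt_nonneg _) this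
    have hlogn : Real.log n ≤ 4 * r := by
      have h := Real.log_le_sub_one_of_pos (show 0 < r by linarith)
      have h4 : Real.log n = 4 * Real.log r := by rw [← hr4, Real.log_pow]; norm_num
      linarith
    have hlog : Real.log (8 / 3 * n) ≤ 2 + 4 * r := by
      rw [Real.log_mul (by norm_num) hn0.ne']
      linarith [Real.log_le_sub_one_of_pos (show (0 : ℝ) < 8 / 3 by norm_num)]
    have hlog0 : 0 ≤ Real.log (8 / 3 * n) := Real.log_nonneg (by
      have : (1 : ℝ) ≤ n := by exact_mod_cast (lt_of_lt_of_le (by norm_num) hn : 0 < n)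
      linarith)
    have hmr : (m : ℝ) ≤ r ^ 2 := by
      rw [hr, Real.sq_sqrt (Real.sqrt_nonneg _)]
      refine Real.le_sqrt_of_sq_le ?_
      have : m ^ 2 ≤ n := (Nat.pow_le_pow_left hm 2).trans (Nat.sqrt_le' n)
      exact_mod_cast this
    push_cast
    calc 2 * (m : ℝ) * Real.log (8 / 3 * n) + n * Real.log (3 / 4)
        ≤ 2 * r ^ 2 * (2 + 4 * r) + n * (-(1 / 4)) :=
          add_le_add (mul_le_mul (by linarith) hlog hlog0 (by positivity))
            (mul_le_mul_of_nonneg_left hlog34 hn0.le)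
      _ ≤ 0 := by
          rw [← hr4]
          nlinarith [sq_nonneg r, mul_le_mul_of_nonneg_left hr48 (pow_nonneg (show 0 ≤ r by linarith) 3),
            mul_le_mul_of_nonneg_left hr48 (sq_nonneg r)]
  rw [le_div_iff₀ (by positivity)]
  refine le_trans (le_of_eq ?_) key
  obtain ⟨d, rfl⟩ := Nat.exists_eq_add_of_le h2m
  rw [Nat.add_sub_cancel_left, mul_pow, pow_add, pow_add]
  have e1 : (8 / 3 : ℝ) ^ (2 * m) * (3 / 4) ^ (2 * m) = 2 ^ (2 * m) := by
    rw [← mul_pow]; norm_num
  have e2 : (3 / 8 : ℝ) ^ d * 2 ^ d = (3 / 4) ^ d := by rw [← mul_pow]; norm_num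
  rw [← e1, ← e2]
  ring

open scoped Classical in
/-- With probability at least `1 - 16n⁴2⁻ⁿ` every nonzero kernel vector has fewer than `z` zeros,
as soon as `z` is at least `40 n / log₂ n`. -/
theorem sparse_singular_le {n : ℕ} (hn : 48 ^ 4 ≤ n) (z : ℕ)
    (hz : 40 * (n : ℝ) ≤ z * Real.logb 2 n) :
    (#{x : Upper n → Bool | SparseSingular x z} : ℝ) / 2 ^ Fintype.card (Upper n)
      ≤ 16 * (n : ℝ) ^ 4 / 2 ^ n := by
  have hn1 : 1 ≤ n := le_trans (by norm_num) hn
  have hn1' : (1 : ℝ) ≤ n := by exact_mod_cast hn1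
  set k := Nat.sqrt (8 * n) + 1 with hk
  have hL : 0 ≤ Real.logb 2 n := Real.logb_nonneg one_lt_two hn1'
  have hkL : (k : ℝ) * Real.logb 2 n ≤ 28 * n := by
    set r := Real.sqrt (Real.sqrt n) with hr
    have hn0 : (0 : ℝ) < n := by linarith
    have hr4 : r ^ 4 = n := by
      rw [show r ^ 4 = (r ^ 2) ^ 2 by ring, hr, Real.sq_sqrt (Real.sqrt_nonneg _),
        Real.sq_sqrt hn0.le]
    have hr1 : 1 ≤ r := Real.one_le_sqrt.2 (Real.one_le_sqrt.2 hn1')
    have hlogn : Real.logb 2 n ≤ 8 * r := by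
      rw [Real.logb, div_le_iff₀ (Real.log_pos one_lt_two)]
      have h := Real.log_le_sub_one_of_pos (show 0 < r by linarith)
      have h4 : Real.log n = 4 * Real.log r := by rw [← hr4, Real.log_pow]; norm_num
      have h5 := Real.log_le_sub_one_of_pos (show (0 : ℝ) < 1 / 2 by norm_num)
      rw [one_div, Real.log_inv] at h5
      nlinarith
    have hkr : (k : ℝ) ≤ 4 * r ^ 2 := by
      have h1 : ((Nat.sqrt (8 * n) : ℕ) : ℝ) ^ 2 ≤ (3 * r ^ 2) ^ 2 := by
        have : ((Nat.sqrt (8 * n) : ℕ) : ℝ) ^ 2 ≤ ((8 * n : ℕ) : ℝ) := by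
          exact_mod_cast Nat.sqrt_le' (8 * n)
        push_cast at this
        nlinarith
      have h2 := le_of_pow_le_pow_left₀ two_ne_zero (by positivity) h1
      rw [hk]; push_cast; nlinarith
    refine (mul_le_mul hkr hlogn hL (by positivity)).trans ?_
    have hr2 : 2 ≤ r := by
      refine le_of_pow_le_pow_left₀ (show (4 : ℕ) ≠ 0 by norm_num) (Real.sqrt_nonneg _) ?_
      rw [hr4]
      exact le_trans (by norm_num) (show ((48 ^ 4 : ℕ) : ℝ) ≤ n by exact_mod_cast hn)
    rw [← hr4]
    nlinarith [mul_le_mul_of_nonneg_left hr2 (pow_nonneg (show 0 ≤ r by linarith) 3)]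
  have hsub : ({x : Upper n → Bool | SparseSingular x z} : Finset _) ⊆
      ({S : Finset (Fin n) | S.Nonempty ∧ #S + z ≤ n} : Finset _).biUnion
        fun S => {x | HasKerSupp x S} := by
    intro x hx
    simp only [mem_filter, mem_univ, true_and] at hx
    obtain ⟨v, hv0, hv, hvz⟩ := hx
    refine mem_biUnion.2 ⟨({i | v i ≠ 0} : Finset _), mem_filter.2 ⟨mem_univ _, ?_, ?_⟩,
      mem_filter.2 ⟨mem_univ _, v, hv, fun i => by simp⟩⟩
    · obtain ⟨i, hi⟩ := Function.ne_iff.1 hv0
      exact ⟨i, by simpa using hi⟩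
    · rw [Set.ncard_eq_toFinset_card'] at hvz
      have h := Finset.card_filter_add_card_filter_not (s := (univ : Finset (Fin n)))
        (fun i => v i ≠ 0)
      simp only [not_not, card_univ, Fintype.card_fin, Set.toFinset_ofPred] at h hvz
      omega
  have hb : ∀ S : Finset (Fin n), S.Nonempty → #S + z ≤ n →
      (#{x | HasKerSupp x S} : ℝ) / 2 ^ Fintype.card (Upper n) * (n.choose #S : ℝ)
        ≤ 8 * (n : ℝ) ^ 3 / 2 ^ n := by
    intro S hS0 hSz
    set m := #S with hm
    have hm1 : 1 ≤ m := hS0.card_pos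
    have hpow : 1 / (2 : ℝ) ^ n ≤ (n : ℝ) ^ 3 / 2 ^ n :=
      div_le_div_of_nonneg_right (one_le_pow₀ hn1') (by positivity)
    rcases le_or_gt m (Nat.sqrt n) with hms | hms
    · have h2m : 2 * m ≤ n := by
        have := Nat.sqrt_le n
        nlinarith
      refine (mul_le_mul_of_nonneg_right (prob_supp_le S m hm1 (by omega)) (Nat.cast_nonneg _)).trans ?_
      rw [← hm, Nat.choose_succ_self, Nat.cast_zero, zero_mul, zero_add]
      have hc : ((n - m).choose (m - 1) : ℝ) * (n.choose m : ℝ) ≤ (n : ℝ) ^ (2 * m - 1) := by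
        have : (n - m).choose (m - 1) * n.choose m ≤ n ^ (2 * m - 1) := by
          rw [show 2 * m - 1 = (m - 1) + m by omega, pow_add]
          exact Nat.mul_le_mul ((Nat.choose_le_pow _ _).trans (Nat.pow_le_pow_left (by omega) _))
            (Nat.choose_le_pow _ _)
        exact_mod_cast this
      rw [mul_right_comm]
      refine (mul_le_mul_of_nonneg_right hc (pow_nonneg (rho_nonneg m) _)).trans ?_
      rcases le_or_gt 3 m with h3 | h3
      · refine le_trans ?_ ((small_bound hn hms).trans (hpow.trans ?_))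
        · exact mul_le_mul (pow_le_pow_right₀ hn1' (by omega))
            ((pow_le_pow_left₀ (rho_nonneg m) (rho_le_three_eighths h3) _).trans
              (pow_le_pow_of_le_one (by norm_num) (by norm_num) (by omega)))
            (pow_nonneg (rho_nonneg m) _) (by positivity)
        · exact div_le_div_of_nonneg_right
            (le_mul_of_one_le_left (by positivity) (by norm_num)) (by positivity)
      · calc (n : ℝ) ^ (2 * m - 1) * rho m ^ (n - m - (m - 1))
            ≤ (n : ℝ) ^ 3 * (1 / 2) ^ (n - 3) :=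
              mul_le_mul (pow_le_pow_right₀ hn1' (by omega))
                ((pow_le_pow_left₀ (rho_nonneg m) (rho_le_half hm1) _).trans
                  (pow_le_pow_of_le_one (by norm_num) (by norm_num) (by omega)))
                (pow_nonneg (rho_nonneg m) _) (by positivity)
          _ = 8 * (n : ℝ) ^ 3 / 2 ^ n := by
              obtain ⟨d, rfl⟩ := Nat.exists_eq_add_of_le (show 3 ≤ n by omega)
              rw [Nat.add_sub_cancel_left, pow_add, one_div, inv_pow]
              field_simp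
              norm_num
    · have hzk : k ≤ z := by
        by_contra hlt
        push Not at hlt
        have : (z : ℝ) * Real.logb 2 n ≤ (k : ℝ) * Real.logb 2 n :=
          mul_le_mul_of_nonneg_right (by exact_mod_cast hlt.le) hL
        linarith
      have hk1 : 1 ≤ k := by omega
      refine (mul_le_mul_of_nonneg_right (prob_supp_le S k hk1 (by omega)) (Nat.cast_nonneg _)).trans ?_
      rw [← hm]
      have hch : ∀ a b : ℕ, a ≤ n → (a.choose b : ℝ) ≤ 2 ^ n := fun a b ha => by
        exact_mod_cast (Nat.choose_le_two_pow a b).trans (Nat.pow_le_pow_right two_pos ha)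
      have hD : 4 * n ≤ (k + 1) * (k + 1) / 2 := by
        have := Nat.lt_succ_sqrt (8 * n)
        rw [Nat.le_div_iff_mul_le two_pos]
        calc 4 * n * 2 ≤ k * k := by rw [hk]; linarith
          _ ≤ _ := Nat.mul_le_mul (by omega) (by omega)
      set e := n - m - (k - 1) with he
      have he' : (z : ℝ) - k ≤ e := by
        have : z ≤ e + k := by omega
        have h' : (z : ℝ) ≤ e + k := by exact_mod_cast this
        linarith
      have hrho : rho m ^ e ≤ (1 / 2 : ℝ) ^ (3 * n) := by
        refine le_of_pow_le_pow_left₀ (show (4 : ℕ) ≠ 0 by norm_num) (by positivity) ?_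
        have hn0 : (0 : ℝ) < n := by linarith
        have h4 : rho m ^ 4 * n ≤ 1 := by
          have h1 : (n : ℝ) ≤ (m : ℝ) ^ 2 := by
            have : n ≤ m ^ 2 := (Nat.lt_succ_sqrt' n).le.trans (Nat.pow_le_pow_left hms 2)
            exact_mod_cast this
          calc rho m ^ 4 * n ≤ rho m ^ 4 * (m : ℝ) ^ 2 :=
                mul_le_mul_of_nonneg_left h1 (pow_nonneg (rho_nonneg m) _)
            _ = (rho m ^ 2 * m) ^ 2 := by ring
            _ ≤ 1 := pow_le_one₀ (mul_nonneg (sq_nonneg _) (Nat.cast_nonneg _)) rho_sq_mul_le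
        calc (rho m ^ e) ^ 4 = (rho m ^ 4) ^ e := by rw [← pow_mul, ← pow_mul, mul_comm]
          _ ≤ (1 / (n : ℝ)) ^ e :=
              pow_le_pow_left₀ (pow_nonneg (rho_nonneg m) _) ((le_div_iff₀ hn0).2 h4) _
          _ ≤ ((1 / 2 : ℝ) ^ (3 * n)) ^ 4 := by
              rw [← pow_mul, one_div, one_div, inv_pow, inv_pow]
              refine inv_anti₀ (by positivity) ?_
              rw [← Real.rpow_natCast, ← Real.rpow_natCast (n : ℝ) e]
              rw [show (n : ℝ) ^ (e : ℝ) = ((2 : ℝ) ^ Real.logb 2 n) ^ (e : ℝ) by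
                rw [Real.rpow_logb two_pos (by norm_num) hn0]]
              rw [← Real.rpow_mul two_pos.le]
              refine Real.rpow_le_rpow_of_exponent_le one_le_two ?_
              push_cast
              nlinarith [mul_le_mul_of_nonneg_left he' hL]
      calc ((m.choose (k + 1) : ℝ) * (1 / 2) ^ ((k + 1) * (k + 1) / 2)
              + ((n - m).choose (k - 1) : ℝ) * rho m ^ e) * (n.choose m : ℝ)
          ≤ (2 ^ n * (1 / 2) ^ (3 * n) + 2 ^ n * (1 / 2) ^ (3 * n)) * 2 ^ n := by
            refine mul_le_mul (add_le_add ?_ ?_) (hch n m le_rfl) (Nat.cast_nonneg _) (by positivity)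
            · exact mul_le_mul (hch m _ (by omega))
                (pow_le_pow_of_le_one (by norm_num) (by norm_num) (by omega)) (by positivity)
                (by positivity)
            · exact mul_le_mul (hch _ _ (by omega)) hrho (pow_nonneg (rho_nonneg m) _) (by positivity)
        _ = 2 / 2 ^ n := by
            rw [one_div, inv_pow, pow_mul' (2 : ℝ) 3 n]
            field_simp
            ring
        _ ≤ _ := div_le_div_of_nonneg_right (by nlinarith [one_le_pow₀ (n := 3) hn1']) (by positivity)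
  set P : Finset (Fin n) → ℝ := fun S =>
    (#{x | HasKerSupp x S} : ℝ) / 2 ^ Fintype.card (Upper n)
  calc (#{x : Upper n → Bool | SparseSingular x z} : ℝ) / 2 ^ Fintype.card (Upper n)
      ≤ ∑ S ∈ ({S : Finset (Fin n) | S.Nonempty ∧ #S + z ≤ n} : Finset _), P S := by
        rw [← sum_div]
        refine div_le_div_of_nonneg_right ?_ (by positivity)
        exact_mod_cast (card_le_card hsub).trans card_biUnion_le
    _ ≤ ∑ S ∈ ({S : Finset (Fin n) | S.Nonempty ∧ #S + z ≤ n} : Finset _),
          8 * (n : ℝ) ^ 3 / 2 ^ n / (n.choose #S : ℝ) := by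
        refine sum_le_sum fun S hS => ?_
        obtain ⟨-, h1, h2⟩ := mem_filter.1 hS
        rw [le_div_iff₀ (by exact_mod_cast Nat.choose_pos (show #S ≤ n by omega))]
        exact hb S h1 h2
    _ ≤ ∑ S ∈ (univ : Finset (Fin n)).powerset, 8 * (n : ℝ) ^ 3 / 2 ^ n / (n.choose #S : ℝ) :=
        sum_le_sum_of_subset_of_nonneg (fun S _ => mem_powerset.2 (subset_univ S))
          fun S _ _ => by positivity
    _ = (n + 1) * (8 * (n : ℝ) ^ 3 / 2 ^ n) := by
        rw [sum_powerset_apply_card fun j => 8 * (n : ℝ) ^ 3 / 2 ^ n / (n.choose j : ℝ),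
          card_univ, Fintype.card_fin]
        rw [sum_congr rfl fun j hj => show n.choose j • (8 * (n : ℝ) ^ 3 / 2 ^ n / (n.choose j : ℝ))
            = 8 * (n : ℝ) ^ 3 / 2 ^ n by
          rw [nsmul_eq_mul, mul_div_cancel₀]
          exact_mod_cast (Nat.choose_pos (show j ≤ n by simp at hj; omega)).ne']
        simp
    _ ≤ _ := by
        rw [mul_div_assoc']
        exact div_le_div_of_nonneg_right (by nlinarith [pow_nonneg (show (0 : ℝ) ≤ n by linarith) 3])
          (by positivity)

end Vale.Agent.P160
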