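import Vale.Agent.P160.Values

/-! Structured kernel vectors have probability `(1/2+o(1))ⁿ`. -/

namespace Vale.Agent.P160

open scoped BigOperators
open Finset Matrix Filter

lemma eventually_size (η : ℝ) (hη : 0 < η) : ∀ᶠ n : ℕ in atTop,
    48 ^ 4 ≤ n ∧ 1 ≤ Real.logb 2 n ∧ Real.logb 2 n ≤ Real.sqrt n ∧
      Real.logb 2 (Real.logb 2 n) ≤ η * Real.logb 2 n := by
  have hl2 : (0 : ℝ) < Real.log 2 := Real.log_pos one_lt_two
  have hL : Tendsto (fun n : ℕ => Real.logb 2 n) atTop atTop :=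
    (Real.tendsto_logb_atTop one_lt_two).comp tendsto_natCast_atTop_atTop
  have h1 : ∀ᶠ y : ℝ in atTop, Real.logb 2 y ≤ η * y := by
    have h := Real.isLittleO_log_id_atTop.def (mul_pos hη hl2)
    filter_upwards [h, eventually_ge_atTop (1 : ℝ)] with y hy hy1
    rw [Real.norm_eq_abs, Real.norm_eq_abs, id, abs_of_nonneg (Real.log_nonneg hy1),
      abs_of_nonneg (by linarith)] at hy
    rw [Real.logb, div_le_iff₀ hl2]
    linarith
  have h2 : ∀ᶠ y : ℝ in atTop, Real.logb 2 y ≤ Real.sqrt y := by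
    have h := (isLittleO_log_rpow_atTop (show (0 : ℝ) < 1 / 2 by norm_num)).def hl2
    filter_upwards [h, eventually_ge_atTop (1 : ℝ)] with y hy hy1
    rw [Real.norm_eq_abs, Real.norm_eq_abs, abs_of_nonneg (Real.log_nonneg hy1),
      abs_of_nonneg (Real.rpow_nonneg (by linarith) _), ← Real.sqrt_eq_rpow] at hy
    rw [Real.logb, div_le_iff₀ hl2]
    linarith
  filter_upwards [eventually_ge_atTop (48 ^ 4), hL.eventually_ge_atTop 1,
    tendsto_natCast_atTop_atTop.eventually h2, hL.eventually h1] with n a b c d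
  exact ⟨a, b, c, d⟩

lemma fewValues_mono {n : ℕ} {x : Upper n → Bool} {r z z' : ℕ} (hz : z' ≤ z)
    (h : FewValues x r z) : FewValues x r z' := by
  obtain ⟨v, h0, hv, T, hT, hr⟩ := h
  exact ⟨v, h0, hv, T, hz.trans hT, hr⟩

lemma sparseSingular_mono {n : ℕ} {x : Upper n → Bool} {z z' : ℕ} (hz : z' ≤ z)
    (h : SparseSingular x z) : SparseSingular x z' := by
  obtain ⟨v, h0, hv, hT⟩ := h
  exact ⟨v, h0, hv, hz.trans hT⟩

open scoped Classical in
lemma fewValues_bound (a η : ℝ) (ha0 : 0 ≤ a) (ha : a < 1 / 2) (hηdef : η = (1 - 2 * a) / 8)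
    (n r y y₀ : ℕ) (h48 : 48 ^ 4 ≤ n) (hL1 : 1 ≤ Real.logb 2 n) (hLsq : Real.logb 2 n ≤ Real.sqrt n)
    (hLL : Real.logb 2 (Real.logb 2 n) ≤ η * Real.logb 2 n) (hr : (r : ℝ) ≤ (n : ℝ) ^ a) (hyn : y ≤ n)
    (hy₀' : (y₀ : ℝ) ≤ 41 * ((n : ℝ) / Real.logb 2 n))
    (hyl : 64 * ((n : ℝ) / Real.logb 2 n) ≤ (1 - 2 * a) * y) :
    (#{x : Upper n → Bool | FewValues x r y ∧ ¬SparseSingular x y₀} : ℝ)
      ≤ 2 ^ Fintype.card (Upper n) * (1 / 2 : ℝ) ^ n := by
  have hd : 0 < 1 - 2 * a := by linarith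
  have hη : 0 < η := by rw [hηdef]; positivity
  set L := Real.logb 2 n with hLdef
  have hn0 : (0 : ℝ) < n := by exact_mod_cast (show 0 < n by omega)
  have hL0 : 0 < L := by linarith
  have hn1 : (1 : ℝ) ≤ n := by exact_mod_cast (show 1 ≤ n by omega)
  have h2L : (n : ℝ) = (2 : ℝ) ^ L := (Real.rpow_logb two_pos (by norm_num) hn0).symm
  set u : ℝ := (n : ℝ) / L with hu
  have hsqu : Real.sqrt n ≤ u := by
    rw [hu, le_div_iff₀ hL0]
    calc Real.sqrt n * L ≤ Real.sqrt n * Real.sqrt n :=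
          mul_le_mul_of_nonneg_left hLsq (Real.sqrt_nonneg _)
      _ = n := Real.mul_self_sqrt hn0.le
  have hu1 : 1 ≤ u := le_trans (Real.one_le_sqrt.2 hn1) hsqu
  set m : ℕ := ⌈u⌉₊ with hm
  have hmu : u ≤ m := Nat.le_ceil u
  have hm' : (m : ℝ) ≤ 2 * u := by
    have := Nat.ceil_lt_add_one (show 0 ≤ u by linarith); rw [← hm] at this; linarith
  have hr' : (r : ℝ) ≤ u := hr.trans <| le_trans
    (Real.rpow_le_rpow_of_exponent_le hn1 (show a ≤ 1 / 2 by linarith))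
    (by rw [← Real.sqrt_eq_rpow]; exact hsqu)
  have hy64 : 64 * u ≤ y := hyl.trans
    (mul_le_of_le_one_left (Nat.cast_nonneg _) (by linarith))
  have hle : m + y₀ + r ≤ y := by
    have : ((m + y₀ + r : ℕ) : ℝ) ≤ y := by push_cast; linarith
    exact_mod_cast this
  set s : ℕ := y - (m + y₀ + r) with hs
  have hsr : (y : ℝ) - 44 * u ≤ s := by
    rw [hs, Nat.cast_sub hle]; push_cast; linarith
  refine (fewValues_card_le r y y₀ m s (by omega) hyn).trans ?_
  have hmL : (2 : ℝ) ^ (L * (1 - η)) ≤ m := by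
    refine le_trans ?_ hmu
    rw [hu, le_div_iff₀ hL0]
    calc (2 : ℝ) ^ (L * (1 - η)) * L = (2 : ℝ) ^ (L * (1 - η)) * (2 : ℝ) ^ Real.logb 2 L := by
          rw [Real.rpow_logb two_pos (by norm_num) hL0]
      _ = (2 : ℝ) ^ (L * (1 - η) + Real.logb 2 L) := (Real.rpow_add two_pos _ _).symm
      _ ≤ (2 : ℝ) ^ L := Real.rpow_le_rpow_of_exponent_le one_le_two (by nlinarith [hLL])
      _ = n := h2L.symm
  have hrho : rho m ≤ (2 : ℝ) ^ (-(L * (1 - η)) / 2) := by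
    refine le_of_pow_le_pow_left₀ two_ne_zero (by positivity) ?_
    rw [← Real.rpow_natCast ((2 : ℝ) ^ (-(L * (1 - η)) / 2)), ← Real.rpow_mul two_pos.le]
    rw [show -(L * (1 - η)) / 2 * ((2 : ℕ) : ℝ) = -(L * (1 - η)) by push_cast; ring,
      Real.rpow_neg two_pos.le, ← one_div, le_div_iff₀ (Real.rpow_pos_of_pos two_pos _)]
    exact (mul_le_mul_of_nonneg_left hmL (sq_nonneg _)).trans rho_sq_mul_le
  have hrs : rho m ^ s ≤ (2 : ℝ) ^ (-(L * (1 - η)) / 2 * s) := by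
    rw [Real.rpow_mul two_pos.le, Real.rpow_natCast]
    exact pow_le_pow_left₀ (rho_nonneg m) hrho s
  have hrz : (r : ℝ) ^ y ≤ (2 : ℝ) ^ (L * a * y) := by
    rw [Real.rpow_mul two_pos.le, Real.rpow_natCast, Real.rpow_mul two_pos.le, ← h2L]
    exact pow_le_pow_left₀ (Nat.cast_nonneg _) hr y
  have hexp : L * a * y + -(L * (1 - η)) / 2 * s ≤ -(3 * (n : ℝ)) := by
    have hLu : L * u = n := by rw [hu]; field_simp
    have hη1 : η ≤ 1 := by rw [hηdef]; linarith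
    have e1 : L * (1 - η) / 2 * ((y : ℝ) - 44 * u) ≤ L * (1 - η) / 2 * s :=
      mul_le_mul_of_nonneg_left hsr
        (div_nonneg (mul_nonneg hL0.le (by linarith)) two_pos.le)
    have e2 : L * (64 * u) ≤ L * ((1 - 2 * a) * y) := mul_le_mul_of_nonneg_left hyl hL0.le
    have e3 : L * (η * y) = L * ((1 - 2 * a) * y) / 8 := by rw [hηdef]; ring
    have e4 : 0 ≤ η * n := by positivity
    nlinarith [e1, e2, e3, e4, hLu]
  calc 2 ^ n * (r : ℝ) ^ y * 2 ^ n * (2 ^ Fintype.card (Upper n) * rho m ^ s)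
      ≤ 2 ^ n * (2 : ℝ) ^ (L * a * y) * 2 ^ n *
          (2 ^ Fintype.card (Upper n) * (2 : ℝ) ^ (-(L * (1 - η)) / 2 * s)) := by
        have : (0 : ℝ) ≤ rho m ^ s := pow_nonneg (rho_nonneg m) _
        gcongr
    _ = 2 ^ Fintype.card (Upper n) *
          (2 ^ n * 2 ^ n * (2 : ℝ) ^ (L * a * y + -(L * (1 - η)) / 2 * s)) := by
        rw [Real.rpow_add two_pos]; ring
    _ ≤ 2 ^ Fintype.card (Upper n) * (2 ^ n * 2 ^ n * (2 : ℝ) ^ (-(3 * (n : ℝ)))) := by
        have := Real.rpow_le_rpow_of_exponent_le one_le_two hexp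
        gcongr
    _ = 2 ^ Fintype.card (Upper n) * (1 / 2 : ℝ) ^ n := by
        rw [Real.rpow_neg two_pos.le, show (3 * (n : ℝ)) = ((3 * n : ℕ) : ℝ) by push_cast; ring,
          Real.rpow_natCast, one_div, inv_pow, pow_mul' (2 : ℝ) 3 n]
        field_simp

open scoped Classical in
theorem structured_singular_le (a : ℝ) (ha0 : 0 ≤ a) (ha : a < 1 / 2) :
    ∃ N : ℕ, ∀ n ≥ N, ∀ z₀ z r : ℕ, 40 * (n : ℝ) ≤ z₀ * Real.logb 2 n →
      64 * (n : ℝ) ≤ (1 - 2 * a) * (z * Real.logb 2 n) → (r : ℝ) ≤ (n : ℝ) ^ a →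
      (#{x : Upper n → Bool | SparseSingular x z₀ ∨ FewValues x r z} : ℝ)
          / 2 ^ Fintype.card (Upper n) ≤ 17 * (n : ℝ) ^ 4 / 2 ^ n := by
  have hd : 0 < 1 - 2 * a := by linarith
  set η : ℝ := (1 - 2 * a) / 8 with hηdef
  have hη : 0 < η := by positivity
  obtain ⟨N, hN⟩ := eventually_atTop.1 (eventually_size η hη)
  refine ⟨N, fun n hn z₀ z r hz₀ hz hr => ?_⟩
  obtain ⟨h48, hL1, hLsq, hLL⟩ := hN n hn
  set L := Real.logb 2 n with hLdef
  have hn0 : (0 : ℝ) < n := by exact_mod_cast (show 0 < n by omega)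
  have hL0 : 0 < L := by linarith
  have hn1 : (1 : ℝ) ≤ n := by exact_mod_cast (show 1 ≤ n by omega)
  have h2L : (n : ℝ) = (2 : ℝ) ^ L := (Real.rpow_logb two_pos (by norm_num) hn0).symm
  set u : ℝ := (n : ℝ) / L with hu
  have hsqu : Real.sqrt n ≤ u := by
    rw [hu, le_div_iff₀ hL0]
    calc Real.sqrt n * L ≤ Real.sqrt n * Real.sqrt n :=
          mul_le_mul_of_nonneg_left hLsq (Real.sqrt_nonneg _)
      _ = n := Real.mul_self_sqrt hn0.le
  have hu1 : 1 ≤ u := le_trans (Real.one_le_sqrt.2 hn1) hsqu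
  set y₀ : ℕ := ⌈40 * u⌉₊ with hy₀
  set y : ℕ := ⌈64 * u / (1 - 2 * a)⌉₊ with hy
  have hy₀z : y₀ ≤ z₀ := Nat.ceil_le.2 (by
    rw [hu, mul_div_assoc', div_le_iff₀ hL0]; exact hz₀)
  have hyz : y ≤ z := Nat.ceil_le.2 (by
    rw [hu, mul_div_assoc', div_div, div_le_iff₀ (by positivity)]; nlinarith [hz])
  have hy₀L : 40 * (n : ℝ) ≤ y₀ * L := by
    have := Nat.le_ceil (40 * u)
    rw [← hy₀, hu, mul_div_assoc', div_le_iff₀ hL0] at this
    exact this
  have hsparse := sparse_singular_le (n := n) h48 y₀ hy₀L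
  set Fw : Finset (Upper n → Bool) := {x | FewValues x r y ∧ ¬SparseSingular x y₀}
  have hfew : (#Fw : ℝ) ≤ 2 ^ Fintype.card (Upper n) * (1 / 2 : ℝ) ^ n := by
    rcases le_or_gt y n with hyn | hyn
    swap
    · have : Fw = ∅ := by
        refine filter_eq_empty_iff.2 fun x _ hx => ?_
        obtain ⟨v, -, -, T, hT, -⟩ := hx.1
        have := card_le_univ T
        simp only [Fintype.card_fin] at this
        omega
      rw [this, card_empty, Nat.cast_zero]
      positivity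
    exact fewValues_bound a η ha0 ha hηdef n r y y₀ h48 hL1 hLsq hLL hr hyn
      (by have := Nat.ceil_lt_add_one (show 0 ≤ 40 * u by linarith); rw [← hy₀] at this; linarith)
      (by
        have h := Nat.le_ceil (64 * u / (1 - 2 * a))
        rw [← hy, div_le_iff₀ hd] at h
        linarith)
  have hcount : (#{x : Upper n → Bool | SparseSingular x z₀ ∨ FewValues x r z} : ℝ)
      ≤ #{x : Upper n → Bool | SparseSingular x y₀} + #Fw := by
    rw [← Nat.cast_add]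
    refine Nat.cast_le.2 ((card_le_card fun x hx => ?_).trans (card_union_le _ _))
    simp only [mem_filter, mem_univ, true_and, mem_union, Fw] at hx ⊢
    by_cases h : SparseSingular x y₀
    · exact Or.inl h
    · rcases hx with hx | hx
      · exact absurd (sparseSingular_mono hy₀z hx) h
      · exact Or.inr ⟨fewValues_mono hyz hx, h⟩
  refine (div_le_div_of_nonneg_right hcount (by positivity)).trans ?_
  rw [add_div]
  have h2 : (#Fw : ℝ) / 2 ^ Fintype.card (Upper n) ≤ (1 / 2 : ℝ) ^ n := by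
    rw [div_le_iff₀ (by positivity)]; linarith
  have h3 : (1 / 2 : ℝ) ^ n ≤ (n : ℝ) ^ 4 / 2 ^ n := by
    rw [div_pow, one_pow]
    exact div_le_div_of_nonneg_right (one_le_pow₀ hn1) (by positivity)
  calc _ ≤ 16 * (n : ℝ) ^ 4 / 2 ^ n + (n : ℝ) ^ 4 / 2 ^ n := add_le_add hsparse (h2.trans h3)
    _ = _ := by ring

end Vale.Agent.P160
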