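import Vale.Agent.P160.Asymp

/-! Kernel vectors whose values concentrate on few levels. -/

namespace Vale.Agent.P160

open scoped BigOperators
open Finset Matrix

/-- Resampling the entries in the range of `f`, inside an event invariant under resampling. -/
lemma fill_count' {κ D : Type*} [Fintype κ] [Fintype D] [DecidableEq κ] [DecidableEq D] (f : D → κ)
    (hf : Function.Injective f) (E E' : (κ → Bool) → Prop) (c : ℕ) [DecidablePred E] [DecidablePred E']
    (h1 : ∀ x g, E (Function.extend f g x) → E' x)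
    (h : ∀ x, E' x → #{g : D → Bool | E (Function.extend f g x)} ≤ c) :
    #{x | E x} * 2 ^ Fintype.card D ≤ #{x | E' x} * c := by
  classical
  let σ : (κ → Bool) × (D → Bool) → (κ → Bool) × (D → Bool) := fun p =>
    (Function.extend f p.2 p.1, p.1 ∘ f)
  have hσ : Function.Involutive σ := fun p => by
    refine Prod.ext ?_ (funext fun d => by simp [σ, hf.extend_apply])
    funext k
    by_cases hk : ∃ d, f d = k
    · obtain ⟨d, rfl⟩ := hk
      simp [σ, hf.extend_apply]
    · simp [σ, Function.extend_apply' _ _ _ hk]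
  have e1 : #{p : (κ → Bool) × (D → Bool) | E (σ p).1}
      = #{p : (κ → Bool) × (D → Bool) | E p.1} :=
    Finset.card_bij (fun p _ => σ p) (fun p hp => by simpa using hp)
      (fun p _ q _ h => hσ.injective h) fun q hq => ⟨σ q, by simpa [hσ q] using hq, hσ q⟩
  have e2 : #{p : (κ → Bool) × (D → Bool) | E p.1} = #{x | E x} * 2 ^ Fintype.card D := by
    rw [show ({p : (κ → Bool) × (D → Bool) | E p.1} : Finset _)
      = ({x | E x} : Finset (κ → Bool)) ×ˢ univ from by ext; simp, card_product]
    simp
  rw [← e2, ← e1, card_eq_sum_card_fiberwise (f := Prod.fst) (t := ({x | E' x} : Finset (κ → Bool)))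
    (fun p hp => by
      simp only [coe_filter, Set.mem_ofPred_eq, mem_univ, true_and] at hp ⊢
      exact h1 p.1 p.2 hp)]
  refine le_trans (sum_le_sum fun x hx => le_trans
    (card_le_card_of_injOn (fun p => p.2) (fun p hp => by
      simp only [coe_filter, Set.mem_ofPred_eq, mem_filter, mem_univ, true_and] at hp ⊢
      simpa [σ, hp.2] using hp.1)
      fun p hp q hq hpq => by
        simp only [coe_filter, Set.mem_ofPred_eq] at hp hq
        exact Prod.ext (hp.2.trans hq.2.symm) hpq) (h x (mem_filter.1 hx).2)) ?_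
  simp [smul_eq_mul]

/-- Erdős's bound for an arbitrary target value. -/
lemma littlewood_offord_at {ι : Type*} [Fintype ι] [DecidableEq ι] (w : ι → ℝ) (hw : ∀ i, w i ≠ 0)
    (a : ℝ) :
    #{ε : ι → Bool | ∑ i, sgn (ε i) * w i = a} ≤ (Fintype.card ι).choose (Fintype.card ι / 2) := by
  classical
  let pos : (ι → Bool) → Finset ι := fun ε => {i | sgn (ε i) * w i > 0}
  have hinj : Function.Injective pos := by
    intro ε δ h
    funext i
    have := Finset.ext_iff.1 h i
    simp only [pos, mem_filter, mem_univ, true_and] at this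
    rcases lt_or_gt_of_ne (hw i) with hn | hp <;> cases hε : ε i <;> cases hδ : δ i <;>
      simp_all [sgn] <;> linarith
  refine (card_image_of_injective _ hinj).symm.le.trans (IsAntichain.sperner ?_)
  rintro _ ha _ hb hne hsub
  simp only [coe_image, coe_filter, Set.mem_image, Set.mem_ofPred_eq, mem_univ, true_and] at ha hb
  obtain ⟨ε, hε, rfl⟩ := ha
  obtain ⟨δ, hδ, rfl⟩ := hb
  have habs : ∀ (e : ι → Bool) i, sgn (e i) * w i = if i ∈ pos e then |w i| else -|w i| := by
    intro e i
    rcases lt_or_gt_of_ne (hw i) with hn | hp <;> cases he : e i <;>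
      simp [pos, sgn, he, abs_of_neg, abs_of_pos, *, not_lt_of_gt]
  obtain ⟨i₀, hi₀, hi₀'⟩ : ∃ i, i ∈ pos δ ∧ i ∉ pos ε :=
    exists_of_ssubset (Finset.ssubset_iff_subset_ne.2 ⟨hsub, hne⟩)
  have hlt : ∑ i, sgn (ε i) * w i < ∑ i, sgn (δ i) * w i := by
    refine sum_lt_sum (fun i _ => ?_) ⟨i₀, mem_univ _, ?_⟩
    · rw [habs ε, habs δ]
      split_ifs with h1 h2
      · exact le_rfl
      · exact absurd (hsub h1) h2
      · linarith [abs_nonneg (w i)]
      · exact le_rfl
    · rw [habs ε, habs δ, if_pos hi₀, if_neg hi₀']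
      linarith [abs_pos.2 (hw i₀)]
  rw [hε, hδ] at hlt
  exact lt_irrefl _ hlt

/-- Anticoncentration when at least `m` of the weights are nonzero. -/
lemma anticonc {ι : Type*} [Fintype ι] [DecidableEq ι] (w : ι → ℝ) (a : ℝ) (m : ℕ)
    (hm : m ≤ #{i | w i ≠ 0}) :
    (#{ε : ι → Bool | ∑ i, sgn (ε i) * w i = a} : ℝ) ≤ 2 ^ Fintype.card ι * rho m := by
  classical
  set k := #{i | w i ≠ 0} with hk
  have hcard : Fintype.card {i // w i ≠ 0} = k := Fintype.card_subtype _
  have hfc := fill_count (Subtype.val : {i // w i ≠ 0} → ι) Subtype.val_injective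
    (fun ε : ι → Bool => ∑ i, sgn (ε i) * w i = a) (k.choose (k / 2)) fun x => by
      refine le_trans (card_le_card ?_) ((littlewood_offord_at (fun i : {i // w i ≠ 0} => w i)
        (fun i => i.2) a).trans (le_of_eq (by rw [hcard])))
      intro g hg
      simp only [mem_filter, mem_univ, true_and] at hg ⊢
      rw [← hg, ← sum_filter_of_ne (p := fun i => w i ≠ 0)
        (f := fun i => sgn (Function.extend Subtype.val g x i) * w i)
        (fun i _ h => fun h0 => h (by rw [h0, mul_zero])),
        sum_subtype (p := fun i => w i ≠ 0) _ (fun i => by simp)]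
      refine sum_congr rfl fun i _ => ?_
      rw [Subtype.val_injective.extend_apply]
  rw [hcard] at hfc
  refine le_trans ?_ (mul_le_mul_of_nonneg_left (rho_anti hm) (by positivity))
  rw [rho, mul_div_assoc', le_div_iff₀ (by positivity)]
  exact_mod_cast hfc

/-- Vectors constant on each class of the labelling `c` of `T`. -/
def levelSpace {n r : ℕ} (T : Finset (Fin n)) (c : T → Fin r) : Submodule ℝ (Fin n → ℝ) where
  carrier := {w | ∀ s t : T, c s = c t → w s = w t}
  add_mem' ha hb := fun s t h => by simp [ha s t h, hb s t h]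
  zero_mem' := fun _ _ _ => rfl
  smul_mem' a _ hw := fun s t h => by simp [hw s t h]

lemma finrank_levelSpace {n r : ℕ} (T : Finset (Fin n)) (c : T → Fin r) :
    Module.finrank ℝ (levelSpace T c) ≤ (n - #T) + r := by
  classical
  let rep : Fin r → Fin n → ℝ := fun j i => if h : i ∈ T then if c ⟨i, h⟩ = j then 1 else 0 else 0
  let F : (↥(univ \ T) → ℝ) × (Fin r → ℝ) →ₗ[ℝ] (Fin n → ℝ) :=
    { toFun := fun p i => if h : i ∈ T then p.2 (c ⟨i, h⟩) else p.1 ⟨i, by simp [h]⟩
      map_add' := fun p q => by funext i; by_cases h : i ∈ T <;> simp [h]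
      map_smul' := fun a p => by funext i; by_cases h : i ∈ T <;> simp [h] }
  have hle : levelSpace T c ≤ LinearMap.range F := by
    intro w hw
    refine ⟨(fun i => w i, fun j => if h : ∃ t : T, c t = j then w h.choose else 0), ?_⟩
    funext i
    by_cases h : i ∈ T
    · have he : ∃ t : T, c t = c ⟨i, h⟩ := ⟨⟨i, h⟩, rfl⟩
      simp only [F, LinearMap.coe_mk, AddHom.coe_mk, dif_pos h, dif_pos he]
      exact hw _ ⟨i, h⟩ he.choose_spec
    · simp [F, h]
  refine (Submodule.finrank_mono hle).trans ((LinearMap.finrank_range_le F).trans ?_)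
  simp [card_sdiff]

variable {n : ℕ}

/-- Some dense vector of `U` is killed by the rows in `R`, and all of them are killed by those in
`P`. -/
def Pinned (x : Upper n → Bool) (U : Submodule ℝ (Fin n → ℝ)) (z₀ : ℕ) (R P : Finset (Fin n)) : Prop :=
  (∃ w ∈ U, #{i | w i = 0} < z₀ ∧ ∀ i ∈ R, (symMat x *ᵥ w) i = 0) ∧
    ∀ w ∈ U, (∀ i ∈ R, (symMat x *ᵥ w) i = 0) → ∀ i ∈ P, (symMat x *ᵥ w) i = 0

open scoped Classical in
lemma pinned_le (U : Submodule ℝ (Fin n → ℝ)) (z₀ m : ℕ) (R : Finset (Fin n)) :
    ∀ P ⊆ univ \ R, #P + m + z₀ ≤ #(univ \ R) →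
      (#{x | Pinned x U z₀ R P} : ℝ) ≤ 2 ^ Fintype.card (Upper n) * rho m ^ #P := by
  intro P
  induction P using Finset.induction_on with
  | empty =>
    intro _ _
    simp only [card_empty, pow_zero, mul_one]
    exact_mod_cast le_trans (card_le_univ _) (le_of_eq (by simp))
  | @insert i₀ P hi₀ ih =>
    intro hsub hsize
    rw [card_insert_of_notMem hi₀] at hsize
    have hi₀R : i₀ ∉ R := by
      have := hsub (mem_insert_self i₀ P); simpa using this
    have hPsub : P ⊆ univ \ R := fun i hi => hsub (mem_insert_of_mem hi)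
    have hih := ih hPsub (by omega)
    set Q := (univ \ R) \ P with hQ
    set f : ↥Q → Upper n := fun l => srt i₀ l with hfdef
    have hf : Function.Injective f := by
      intro l l' h
      have h' := congrArg Subtype.val h
      simp only [hfdef] at h'
      rcases srt_eq i₀ l with e | e <;> rcases srt_eq i₀ l' with e' | e' <;>
        rw [e, e', Prod.mk.injEq] at h'
      · exact Subtype.ext h'.2
      · exact Subtype.ext (h'.2.trans h'.1)
      · exact Subtype.ext (h'.1.trans h'.2)
      · exact Subtype.ext h'.1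
    have hmv : ∀ x g, ∀ a ∈ R ∪ P, ∀ w : Fin n → ℝ,
        (symMat (Function.extend f g x) *ᵥ w) a = (symMat x *ᵥ w) a := by
      intro x g a ha w
      simp only [mulVec, dotProduct]
      refine sum_congr rfl fun b _ => ?_
      have hno : ¬∃ d, f d = srt a b := by
        rintro ⟨l, h⟩
        have h' := congrArg Subtype.val h
        have hl := l.2
        simp only [hQ, mem_sdiff, mem_univ, true_and] at hl
        simp only [hfdef] at h'
        have hai : a ≠ i₀ := by
          rintro rfl
          rcases mem_union.1 ha with h | h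
          · exact hi₀R h
          · exact hi₀ h
        have hal : a ≠ l := by
          rintro rfl
          rcases mem_union.1 ha with h | h
          · exact hl.1 h
          · exact hl.2 h
        rcases srt_eq i₀ l with e | e <;> rcases srt_eq a b with e' | e' <;>
          rw [e, e', Prod.mk.injEq] at h'
        · exact hai h'.1.symm
        · exact hal h'.2.symm
        · exact hal h'.1.symm
        · exact hai h'.2.symm
      simp only [symMat, Function.extend_apply' _ _ _ hno]
    have hQn : m + z₀ ≤ #Q := by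
      rw [hQ, card_sdiff_of_subset hPsub]; omega
    set c : ℕ := ⌊(2 : ℝ) ^ #Q * rho m⌋₊ with hc
    have key := fill_count' f hf (fun x => Pinned x U z₀ R (insert i₀ P))
      (fun x => Pinned x U z₀ R P) c ?_ ?_
    · have hkey : (#{x | Pinned x U z₀ R (insert i₀ P)} : ℝ) * 2 ^ #Q
          ≤ #{x | Pinned x U z₀ R P} * ((2 : ℝ) ^ #Q * rho m) := by
        have hcle : (c : ℝ) ≤ (2 : ℝ) ^ #Q * rho m :=
          Nat.floor_le (mul_nonneg (by positivity) (rho_nonneg m))
        refine le_trans ?_ (mul_le_mul_of_nonneg_left hcle (Nat.cast_nonneg _))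
        rw [Fintype.card_coe] at key
        exact_mod_cast key
      have h2 : (0 : ℝ) < 2 ^ #Q := by positivity
      rw [card_insert_of_notMem hi₀, pow_succ, ← mul_assoc]
      refine le_trans ?_ (mul_le_mul_of_nonneg_right hih (rho_nonneg m))
      exact le_of_mul_le_mul_right (by linarith) h2
    · rintro x g ⟨⟨w, hwU, hwz, hwR⟩, hall⟩
      refine ⟨⟨w, hwU, hwz, fun i hi => by rw [← hmv x g i (mem_union_left _ hi)]; exact hwR i hi⟩, ?_⟩
      intro u hu huR i hi
      rw [← hmv x g i (mem_union_right _ hi)]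
      exact hall u hu (fun j hj => by rw [hmv x g j (mem_union_left _ hj)]; exact huR j hj) i
        (mem_insert_of_mem hi)
    · rintro x ⟨⟨w, hwU, hwz, hwR⟩, -⟩
      set rest : ℝ := ∑ b ∈ univ \ Q, symMat x i₀ b * w b with hrest
      refine Nat.le_floor ?_
      refine le_trans ?_ (le_of_le_of_eq (anticonc (fun l : ↥Q => w l) (-rest) m ?_)
        (by rw [Fintype.card_coe]))
      · refine Nat.cast_le.2 (card_le_card ?_)
        intro g hg
        simp only [mem_filter, mem_univ, true_and] at hg ⊢
        have h0 := hg.2 w hwU (fun j hj => by rw [hmv x g j (mem_union_left _ hj)]; exact hwR j hj)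
          i₀ (mem_insert_self _ _)
        simp only [mulVec, dotProduct] at h0
        rw [← sum_sdiff (subset_univ Q), ← Finset.sum_coe_sort Q] at h0
        have e1 : ∑ b ∈ univ \ Q, symMat (Function.extend f g x) i₀ b * w b = rest := by
          refine sum_congr rfl fun b hb => ?_
          have hno : ¬∃ d, f d = srt i₀ b := by
            rintro ⟨l, h⟩
            have h' := congrArg Subtype.val h
            simp only [hfdef] at h'
            have hbl : b = l := by
              rcases srt_eq i₀ l with e | e <;> rcases srt_eq i₀ b with e' | e' <;>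
                rw [e, e', Prod.mk.injEq] at h'
              · exact h'.2.symm
              · exact (h'.2.trans h'.1).symm
              · exact (h'.1.trans h'.2).symm
              · exact h'.1.symm
            exact (mem_sdiff.1 hb).2 (hbl ▸ l.2)
          simp only [symMat, Function.extend_apply' _ _ _ hno]
        have e2 : ∀ l : ↥Q, symMat (Function.extend f g x) i₀ l = sgn (g l) := fun l => by
          rw [symMat, show srt i₀ (l : Fin n) = f l from rfl, hf.extend_apply]
        rw [e1] at h0
        simp only [e2] at h0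
        linarith
      · have hz : #{l : ↥Q | w l = 0} ≤ #{i | w i = 0} :=
          card_le_card_of_injOn Subtype.val (fun l hl => by simpa using hl)
            Subtype.val_injective.injOn
        have hsum := card_filter_add_card_filter_not (s := (univ : Finset ↥Q)) (fun l => w l = 0)
        rw [card_univ, Fintype.card_coe] at hsum
        simp only [ne_eq]
        omega

/-- A kernel vector takes at most `r` values on some set of at least `z` coordinates. -/
def FewValues (x : Upper n → Bool) (r z : ℕ) : Prop :=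
  ∃ v : Fin n → ℝ, v ≠ 0 ∧ symMat x *ᵥ v = 0 ∧
    ∃ T : Finset (Fin n), z ≤ #T ∧ #(T.image v) ≤ r

open scoped Classical in
lemma pinned_of_fewValues {x : Upper n → Bool} {r z z₀ : ℕ}
    (h : FewValues x r z) (hd : ¬SparseSingular x z₀) :
    ∃ T ∈ (univ : Finset (Fin n)).powersetCard z, ∃ c : T → Fin r, ∃ R : Finset (Fin n),
      #R ≤ (n - z) + r ∧ ∀ P, Pinned x (levelSpace T c) z₀ R P := by
  obtain ⟨v, hv0, hv, T', hzT, hr⟩ := h
  obtain ⟨T, hTT, hT⟩ := exists_subset_card_eq hzT
  obtain ⟨e⟩ : Nonempty (↥(T.image v) ↪ Fin r) := by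
    refine Function.Embedding.nonempty_of_card_le ?_
    rw [Fintype.card_coe, Fintype.card_fin]
    exact (card_le_card (image_subset_image hTT)).trans hr
  set c : T → Fin r := fun t => e ⟨v t, mem_image_of_mem v t.2⟩ with hc
  have hvU : v ∈ levelSpace T c := fun s t hst => congrArg Subtype.val (e.injective hst)
  refine ⟨T, mem_powersetCard.2 ⟨subset_univ _, hT⟩, c, ?_⟩
  set U := levelSpace T c
  let φ : Fin n → Module.Dual ℝ U := fun a =>
    { toFun := fun w => (symMat x *ᵥ (w : Fin n → ℝ)) a
      map_add' := fun p q => by simp [mulVec_add]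
      map_smul' := fun s p => by simp [mulVec_smul] }
  obtain ⟨κ, a, ha, hsp, hli⟩ := exists_linearIndependent' ℝ φ
  haveI : Finite κ := Finite.of_injective a ha
  letI := Fintype.ofFinite κ
  refine ⟨univ.image a, ?_, fun P => ⟨⟨v, hvU, ?_, fun i _ => by rw [hv]; rfl⟩, ?_⟩⟩
  · refine card_image_le.trans ?_
    rw [card_univ]
    refine hli.fintype_card_le_finrank.trans ?_
    rw [Subspace.dual_finrank_eq, ← hT]
    exact finrank_levelSpace T c
  · by_contra hcon
    refine hd ⟨v, hv0, hv, ?_⟩
    rw [Set.ncard_eq_toFinset_card']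
    simpa using not_lt.1 hcon
  · intro w hw hwR i _
    have hker : Submodule.span ℝ (Set.range φ) ≤ LinearMap.ker (Module.Dual.eval ℝ U ⟨w, hw⟩) := by
      rw [← hsp, Submodule.span_le]
      rintro _ ⟨j, rfl⟩
      simpa [φ] using hwR _ (mem_image_of_mem _ (mem_univ j))
    simpa [φ] using hker (Submodule.subset_span ⟨i, rfl⟩)

open scoped Classical in
lemma fewValues_card_le (r z z₀ m s : ℕ) (hz : s + m + z₀ + r ≤ z) (hzn : z ≤ n) :
    (#{x : Upper n → Bool | FewValues x r z ∧ ¬SparseSingular x z₀} : ℝ)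
      ≤ 2 ^ n * (r : ℝ) ^ z * 2 ^ n * (2 ^ Fintype.card (Upper n) * rho m ^ s) := by
  set I := ((univ : Finset (Fin n)).powersetCard z).sigma
    (fun T => ((univ : Finset (T → Fin r)) ×ˢ
      ({R : Finset (Fin n) | #R ≤ (n - z) + r} : Finset _))) with hI
  have hPex : ∀ R : Finset (Fin n), #R ≤ (n - z) + r → ∃ P ⊆ univ \ R, #P = s := fun R hR =>
    exists_subset_card_eq (by rw [card_sdiff, inter_univ, card_univ, Fintype.card_fin]; omega)
  let G : (Σ T : Finset (Fin n), (T → Fin r) × Finset (Fin n)) → Finset (Upper n → Bool) := fun p =>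
    if h : ∃ P ⊆ univ \ p.2.2, #P = s then
      ({x | Pinned x (levelSpace p.1 p.2.1) z₀ p.2.2 h.choose} : Finset (Upper n → Bool)) else ∅
  have hsub : ({x : Upper n → Bool | FewValues x r z ∧ ¬SparseSingular x z₀} : Finset _)
      ⊆ I.biUnion G := by
    intro x hx
    obtain ⟨hf, hd⟩ := (mem_filter.1 hx).2
    obtain ⟨T, hT, c, R, hR, hP⟩ := pinned_of_fewValues hf hd
    refine mem_biUnion.2 ⟨⟨T, c, R⟩, mem_sigma.2 ⟨hT, by simp [hR]⟩, ?_⟩
    simp only [G, dif_pos (hPex R hR)]
    exact mem_filter.2 ⟨mem_univ _, hP _⟩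
  have hG : ∀ p ∈ I, (#(G p) : ℝ) ≤ 2 ^ Fintype.card (Upper n) * rho m ^ s := by
    rintro ⟨T, c, R⟩ hp
    have hR : #R ≤ (n - z) + r := by
      have := (mem_sigma.1 hp).2; simpa using this
    simp only [G, dif_pos (hPex R hR)]
    obtain ⟨h1, h2⟩ := (hPex R hR).choose_spec
    refine (pinned_le _ z₀ m R _ h1 ?_).trans_eq (by rw [h2])
    rw [h2, card_sdiff, inter_univ, card_univ, Fintype.card_fin]
    omega
  have hIc : (#I : ℝ) ≤ 2 ^ n * (r : ℝ) ^ z * 2 ^ n := by
    have h : #I ≤ 2 ^ n * (r ^ z * 2 ^ n) := by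
      rw [hI, card_sigma]
      refine le_trans (sum_le_card_nsmul _ _ (r ^ z * 2 ^ n) fun T hT => ?_) ?_
      · rw [card_product, card_univ, Fintype.card_fun, Fintype.card_fin, Fintype.card_coe,
          (mem_powersetCard.1 hT).2]
        exact Nat.mul_le_mul le_rfl ((card_le_univ _).trans (le_of_eq (by simp)))
      · rw [smul_eq_mul]
        refine Nat.mul_le_mul ?_ le_rfl
        rw [card_powersetCard, card_univ, Fintype.card_fin]
        exact Nat.choose_le_two_pow n z
    have h' : (#I : ℝ) ≤ ((2 ^ n * (r ^ z * 2 ^ n) : ℕ) : ℝ) := Nat.cast_le.2 h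
    push_cast at h'
    linarith
  calc (#{x : Upper n → Bool | FewValues x r z ∧ ¬SparseSingular x z₀} : ℝ)
      ≤ ((∑ p ∈ I, #(G p) : ℕ) : ℝ) := Nat.cast_le.2 ((card_le_card hsub).trans card_biUnion_le)
    _ = ∑ p ∈ I, (#(G p) : ℝ) := by push_cast; rfl
    _ ≤ ∑ p ∈ I, (2 ^ Fintype.card (Upper n) * rho m ^ s) := sum_le_sum hG
    _ = #I * (2 ^ Fintype.card (Upper n) * rho m ^ s) := by simp
    _ ≤ _ := mul_le_mul_of_nonneg_right hIc (mul_nonneg (by positivity) (pow_nonneg (rho_nonneg m) _))

end Vale.Agent.P160
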